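import Vale.Agent.Lib.P348.helper23.Basics

namespace Vale.Agent.Lib.P348.H11

open Matrix

open Vale.Agent.Lib.P361 Vale.Agent.Lib.P348

/-- A nonzero vector has positive squared norm. -/
theorem nsq_pos_of_ne {n : Type*} [Fintype n] (φ : n → ℂ) (h : φ ≠ 0) : 0 < nsq φ := by
  rw [nsq_def]
  obtain ⟨σ, hσ⟩ : ∃ σ, φ σ ≠ 0 := by
    by_contra hcon
    push Not at hcon
    exact h (funext hcon)
  have h1 : 0 < ‖φ σ‖ ^ 2 := by positivity
  have h2 : ‖φ σ‖ ^ 2 ≤ ∑ τ, ‖φ τ‖ ^ 2 :=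
    Finset.single_le_sum (f := fun τ => ‖φ τ‖ ^ 2) (fun τ _ => sq_nonneg _) (Finset.mem_univ σ)
  linarith

/-- Homogeneity of the squared norm. -/
theorem nsq_smul {n : Type*} [Fintype n] (c : ℂ) (φ : n → ℂ) :
    nsq (c • φ) = ‖c‖ ^ 2 * nsq φ := by
  rw [nsq_def, nsq_def, Finset.mul_sum]
  apply Finset.sum_congr rfl
  intro σ _
  rw [Pi.smul_apply, smul_eq_mul, norm_mul, mul_pow]

/-- An eigenvalue of a Hermitian matrix is real. -/
theorem eig_real {n : Type*} [Fintype n] (N : Matrix n n ℂ) (hN : N.IsHermitian) (φ : n → ℂ)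
    (hφ : φ ≠ 0) (c : ℂ) (h : N *ᵥ φ = c • φ) : c.im = 0 := by
  have h1 := hN.im_star_dotProduct_mulVec_self φ
  rw [h, dotProduct_smul] at h1
  have h2 : star φ ⬝ᵥ φ = ((nsq φ : ℝ) : ℂ) := by
    rw [nsq_def, dotProduct]
    push_cast
    apply Finset.sum_congr rfl
    intro σ _
    rw [Pi.star_apply, Complex.star_def, Complex.conj_mul']
  rw [h2, smul_eq_mul] at h1
  have h3 : (c * ((nsq φ : ℝ) : ℂ)).im = c.im * nsq φ := by simp
  have h4 : c.im * nsq φ = 0 := by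
    rw [← h3]
    exact h1
  rcases mul_eq_zero.mp h4 with h5 | h5
  · exact h5
  · exact absurd h5 (ne_of_gt (nsq_pos_of_ne φ hφ))

/-- Two commuting Hermitian matrices: on the eigenspace of `H` for a given eigenvalue there is a
unit joint eigenvector whose `N`-eigenvalue is the largest one occurring on that eigenspace. -/
theorem exists_top {n : Type*} [Fintype n] [DecidableEq n] (H N : Matrix n n ℂ)
    (hH : H.IsHermitian) (hN : N.IsHermitian) (hHN : H * N = N * H) (k0 : n) :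
    ∃ (Ω : n → ℂ) (m : ℝ), nsq Ω = 1 ∧ H *ᵥ Ω = (hH.eigenvalues k0 : ℂ) • Ω ∧
      N *ᵥ Ω = (m : ℂ) • Ω ∧
      ∀ (φ : n → ℂ) (m' : ℝ), φ ≠ 0 → H *ᵥ φ = (hH.eigenvalues k0 : ℂ) • φ →
        N *ᵥ φ = (m' : ℂ) • φ → m' ≤ m := by
  classical
  set E : ℂ := (hH.eigenvalues k0 : ℂ) with hE
  let S : Set ℝ := {m' | ∃ φ : n → ℂ, φ ≠ 0 ∧ H *ᵥ φ = E • φ ∧ N *ᵥ φ = (m' : ℂ) • φ}
  have hSfin : S.Finite := by
    have hfin := Module.End.finite_hasEigenvalue (Matrix.toLin' N)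
    have hsub : S ⊆ (fun x : ℝ => (x : ℂ)) ⁻¹' {μ | Module.End.HasEigenvalue (Matrix.toLin' N) μ} := by
      rintro m' ⟨φ, hφ, -, hNφ⟩
      show Module.End.HasEigenvalue (Matrix.toLin' N) (m' : ℂ)
      apply Module.End.hasEigenvalue_of_hasEigenvector
      refine ⟨?_, hφ⟩
      rw [Module.End.mem_eigenspace_iff, Matrix.toLin'_apply]
      exact hNφ
    exact (hfin.preimage (Complex.ofReal_injective.injOn)).subset hsub
  have hSne : S.Nonempty := by
    let G : Submodule ℂ (n → ℂ) := Module.End.eigenspace (Matrix.toLin' H) E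
    have hGmem : ∀ φ : n → ℂ, φ ∈ G ↔ H *ᵥ φ = E • φ := by
      intro φ
      show φ ∈ Module.End.eigenspace (Matrix.toLin' H) E ↔ _
      rw [Module.End.mem_eigenspace_iff, Matrix.toLin'_apply]
    have hinv : ∀ φ ∈ G, Matrix.toLin' N φ ∈ G := by
      intro φ hφ
      rw [hGmem] at hφ ⊢
      rw [Matrix.toLin'_apply, Matrix.mulVec_mulVec, hHN, ← Matrix.mulVec_mulVec, hφ,
        Matrix.mulVec_smul]
    obtain ⟨v0, hv0ne, hv0⟩ : ∃ v0 : n → ℂ, v0 ≠ 0 ∧ H *ᵥ v0 = E • v0 := by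
      refine ⟨⇑(hH.eigenvectorBasis k0), ?_, ?_⟩
      · intro h0
        apply hH.eigenvectorBasis.orthonormal.ne_zero k0
        ext i
        exact congrFun h0 i
      · rw [hH.mulVec_eigenvectorBasis k0]
        ext i
        simp [hE]
    have hnontriv : Nontrivial G :=
      ⟨⟨⟨v0, (hGmem v0).mpr hv0⟩, 0, fun h => hv0ne (congrArg Subtype.val h)⟩⟩
    obtain ⟨c, hc⟩ := Module.End.exists_eigenvalue ((Matrix.toLin' N).restrict hinv)
    obtain ⟨x, hx⟩ := hc.exists_hasEigenvector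
    have hxmem := hx.1
    have hxne := hx.2
    rw [Module.End.mem_eigenspace_iff] at hxmem
    have hNx : N *ᵥ (x : n → ℂ) = c • (x : n → ℂ) := by
      have h0 := congrArg Subtype.val hxmem
      simpa [LinearMap.restrict_apply, Matrix.toLin'_apply] using h0
    have hxne' : (x : n → ℂ) ≠ 0 := fun h => hxne (Subtype.ext h)
    have hcim : c.im = 0 := eig_real N hN _ hxne' c hNx
    refine ⟨c.re, (x : n → ℂ), hxne', (hGmem _).mp x.2, ?_⟩
    have hcre : ((c.re : ℝ) : ℂ) = c := Complex.ext (by simp) (by simp [hcim])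
    rw [hcre]
    exact hNx
  obtain ⟨m, hmS, hmax⟩ := Set.exists_max_image S id hSfin hSne
  obtain ⟨φ, hφ, hHφ, hNφ⟩ := hmS
  have hpos := nsq_pos_of_ne φ hφ
  refine ⟨(((Real.sqrt (nsq φ))⁻¹ : ℝ) : ℂ) • φ, m, ?_, ?_, ?_, ?_⟩
  · rw [nsq_smul, Complex.norm_real, Real.norm_eq_abs, sq_abs, inv_pow, Real.sq_sqrt hpos.le,
      inv_mul_cancel₀ hpos.ne']
  · rw [Matrix.mulVec_smul, hHφ, smul_comm]
  · rw [Matrix.mulVec_smul, hNφ, smul_comm]
  · intro ψ m' hψ hHψ hNψ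
    exact hmax m' ⟨ψ, hψ, hHψ, hNψ⟩

end Vale.Agent.Lib.P348.H11
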